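import Vale.Agent.P305M.Defs
import Vale.Agent.P305Q.Dag

/-!
# The core of the engine (levels, no flows): the interface
-/

namespace Vale.Agent.P305M

open Vale.Agent.P305E Vale.Agent.P305C Vale.Agent.P305Q Finset

/-- The store of items as plain functions. -/
structure GS where
  n : ℕ
  cs : ℕ → List (ℕ × Bool)
  re : ℕ → Option ℕ
  ta : ℕ → ℕ
  hd : ℕ → ℕ
  len : ℕ → ℕ
  dep : ℕ → ℕ
  g : ℕ → ℤ
  bad : ℕ → Bool

namespace GS

/-- Valid items. -/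
def ok (S : GS) (z : ℕ) : Prop := z < S.n ∧ S.bad z = false

instance (S : GS) : DecidablePred S.ok := fun _ => inferInstanceAs (Decidable (_ ∧ _))

/-- The difference of a potential along an item. -/
def dif (S : GS) (φ : ℕ → ℤ) (z : ℕ) : ℤ := φ (S.hd z) - φ (S.ta z)

/-- The store is well formed and its valid real items are the arcs of `G`. -/
structure OK (S : GS) (G : Gh) (Γ M : ℕ) : Prop where
  dag : Dag S.cs S.n
  nle : S.n ≤ M
  len1 : ∀ z < S.n, 1 ≤ S.len z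
  lenM : ∀ z < S.n, S.len z ≤ M
  lens : ∀ z < S.n, nsum S.len (S.cs z) ≤ S.len z
  csl : ∀ z < S.n, (S.cs z).length ≤ Γ
  dep : ∀ z < S.n, ∀ c ∈ S.cs z, S.dep c.1 < S.dep z
  depl : ∀ z < S.n, S.dep z < Γ
  rcs : ∀ z < S.n, ∀ e, S.re z = some e → S.cs z = []
  val : ∀ z, S.ok z → ∀ c ∈ S.cs z, S.ok c.1
  gs : ∀ z, S.ok z → S.re z = none → S.g z = ssum S.g (S.cs z)
  walk : ∀ z, S.ok z → S.re z = none → ∀ φ, S.dif φ z = ssum (S.dif φ) (S.cs z)
  real : ∀ z, S.ok z → ∀ e, S.re z = some e →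
    e ∈ G.al ∧ G.arc e = (S.ta z, S.hd z, S.len z, S.g z)
  uniq : ∀ z z' e, S.ok z → S.ok z' → S.re z = some e → S.re z' = some e → z = z'
  surj : ∀ e ∈ G.al, ∃ z, S.ok z ∧ S.re z = some e
  anc : ∀ e, ((range S.n).filter fun y => S.ok y ∧ chi S.cs S.re y e ≠ 0).card ≤ Γ

/-- `S'` extends `S`; the list `L` contains the items that have lost their validity. -/
structure Ext (S S' : GS) (L : List ℕ) : Prop where
  n : S.n ≤ S'.n
  cs : ∀ z < S.n, S'.cs z = S.cs z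
  re : ∀ z < S.n, S'.re z = S.re z
  len : ∀ z < S.n, S'.len z = S.len z
  dep : ∀ z < S.n, S'.dep z = S.dep z
  bad : ∀ z < S.n, S.bad z = true → S'.bad z = true
  new : ∀ z, S.ok z → S'.ok z ∨ z ∈ L
  mem : ∀ z ∈ L, z < S'.n ∧ S'.bad z = true

/-- A closed walk `l` of valid items with nominal length `w` and a large ratio. -/
structure Cand (S : GS) (κ Γ M : ℕ) (l : List (ℕ × Bool)) (w : ℕ) : Prop where
  ok : ∀ c ∈ l, S.ok c.1
  closed : ∀ φ, ssum (S.dif φ) l = 0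
  len : nsum S.len l ≤ w
  pos : 1 ≤ w
  le : w ≤ M
  big : κ * w ≤ (ssum S.g l).natAbs
  gle : nsum (fun z => (S.g z).natAbs) l ≤ M
  short : l.length ≤ Γ

end GS

/-- The programs of the core. `add` and `kill` also return the items that have lost validity. -/
structure Core (σ : Type) where
  view : σ → GS
  init : ℕ → ℕ → M σ
  add : σ → ℕ → RA → M (List ℕ × σ)
  kill : σ → ℕ → M (List ℕ × σ)
  cand : σ → M (Option (List (ℕ × Bool) × ℕ) × σ)

/-- The specification of the core. `I B b κ G s φ`: the state `s` represents `G` (the flows of `G`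
play no role) and has the credit `φ` for time. -/
structure CoreOK {σ : Type} [Rep σ] (X : Core σ) (c : ℕ) (g : ℕ → ℕ)
    (I : ℕ → ℕ → ℕ → Gh → σ → ℕ → Prop) : Prop where
  pcs : Pure fun p : σ × ℕ => (X.view p.1).cs p.2
  pre : Pure fun p : σ × ℕ => (X.view p.1).re p.2
  plen : Pure fun p : σ × ℕ => (X.view p.1).len p.2
  pdep : Pure fun p : σ × ℕ => (X.view p.1).dep p.2
  pg : Pure fun p : σ × ℕ => (X.view p.1).g p.2
  pbad : Pure fun p : σ × ℕ => (X.view p.1).bad p.2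
  iinit : Impl fun p : ℕ × ℕ => X.init p.1 p.2
  iadd : Impl fun p : σ × ℕ × RA => X.add p.1 p.2.1 p.2.2
  ikill : Impl fun p : σ × ℕ => X.kill p.1 p.2
  icand : Impl X.cand
  sub : ∀ a, Sub fun N => g (a * Nat.size N + a)
  mono : Monotone g
  ok : ∀ B b κ G s φ, I B b κ G s φ →
    (X.view s).OK G (g b) (2 ^ (c * (b + 1))) ∧ 2 ^ (c * (b + 1)) ≤ B
  push : ∀ B b κ G s φ d, I B b κ G s φ → I B b κ (G.push d) s φ
  init : ∀ B b κ, κ ≤ 2 ^ b → 2 ^ (c * (b + 1)) ≤ B →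
    Vt b B (X.init b κ) fun s t => ∃ φ, I B b κ Gh.empty s φ ∧ t + φ ≤ g b
  add : ∀ B b κ G s φ e (a : RA), I B b κ G s φ → G.n < 2 ^ b → e ∉ G.al → e ≤ 2 ^ b →
    a.1 ≤ 2 ^ b → a.2.1 ≤ 2 ^ b → 1 ≤ a.2.2.1 → a.2.2.1 ≤ 2 ^ b → a.2.2.2.natAbs ≤ 2 ^ b →
    Vt b B (X.add s e a) fun o t => (X.view s).Ext (X.view o.2) o.1 ∧
      (∀ y ∈ o.1, (X.view o.2).re y = none) ∧
      ∃ φ', I B b κ (G.ins e a) o.2 φ' ∧ t + o.1.length + φ' ≤ φ + g b
  kill : ∀ B b κ G s φ z e, I B b κ G s φ → (X.view s).ok z → (X.view s).re z = some e →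
    Vt b B (X.kill s z) fun o t => (X.view s).Ext (X.view o.2) o.1 ∧ z ∈ o.1 ∧
      (∀ y ∈ o.1, (X.view o.2).re y = none ∨ y = z) ∧
      ∃ φ', I B b κ (G.del e) o.2 φ' ∧ t + o.1.length + φ' ≤ φ + g b
  cand : ∀ B b κ G s φ, I B b κ G s φ → Vt b B (X.cand s) fun o t =>
    o.1.elim (G.Central (g b * κ) ∧ t ≤ φ + g b) fun p => X.view o.2 = X.view s ∧
      (X.view s).Cand κ (g b) (2 ^ (c * (b + 1))) p.1 p.2 ∧
      ∃ φ', I B b κ G o.2 φ' ∧ t + φ' ≤ φ + g b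

/-- There is a core. -/
def CORE : Prop :=
  ∃ (σ : Type) (_ : Rep σ) (X : Core σ) (c : ℕ) (g : ℕ → ℕ)
    (I : ℕ → ℕ → ℕ → Gh → σ → ℕ → Prop), CoreOK X c g I

end Vale.Agent.P305M
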