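import Vale.Agent.P305M.Asm
import Vale.Agent.P305EV.Main
import Vale.Agent.P305G.Reb
import Vale.Agent.P305Q.Eng

/-!
# The engine from the construction of one level
-/

namespace Vale.Agent.P305M

theorem core_of_build (h : P305Y.BUILD) : CORE :=
  core_of P305EV.event_ok (P305G.rebuild h) P305Y.cand

theorem eng_of_build (h : P305Y.BUILD) : ENG := P305Q.eng_of_core (core_of_build h)

end Vale.Agent.P305M
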