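import Vale.Agent.P305C.Vt

/-!
# The interface between the engine (cycles of small ratio, lazy flows) and the interior point method
-/

namespace Vale.Agent.P305M

open Vale.Agent.P305E Vale.Agent.P305C Finset

/-- An arc: tail, head, length, gradient. -/
abbrev RA : Type := ℕ × ℕ × ℕ × ℤ

/-- What the engine represents: the number of insertions so far, the tags of the arcs that are
present, their data, and the flow that has been pushed through each of them since its insertion. -/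
structure Gh where
  n : ℕ
  al : Finset ℕ
  arc : ℕ → RA
  dl : ℕ → ℤ

namespace Gh

/-- No arcs. -/
def empty : Gh := ⟨0, ∅, fun _ => (0, 0, 0, 0), fun _ => 0⟩

/-- The arc `a` is inserted with the tag `e`. -/
def ins (G : Gh) (e : ℕ) (a : RA) : Gh :=
  ⟨G.n + 1, insert e G.al, Function.update G.arc e a, Function.update G.dl e 0⟩

/-- The arc with the tag `e` is removed. -/
def del (G : Gh) (e : ℕ) : Gh := ⟨G.n, G.al.erase e, G.arc, G.dl⟩

/-- The flow `c` is pushed. -/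
def push (G : Gh) (c : ℕ → ℤ) : Gh := ⟨G.n, G.al, G.arc, fun e => G.dl e + c e⟩

/-- All pushed flows are small. -/
def Clean (G : Gh) (ε : ℕ) : Prop := ∀ e ∈ G.al, (G.dl e).natAbs * (G.arc e).2.2.1 ≤ ε

/-- `c` is a circulation on the arcs that are present. -/
def Circ (G : Gh) (c : ℕ → ℤ) : Prop :=
  ∀ φ : ℕ → ℤ, ∑ e ∈ G.al, c e * (φ (G.arc e).2.1 - φ (G.arc e).1) = 0

/-- `c` is a circulation of length at most `η` that gains `κ * η / 2`. -/
structure Move (G : Gh) (κ η : ℕ) (c : ℕ → ℤ) : Prop where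
  circ : G.Circ c
  len : ∑ e ∈ G.al, (c e).natAbs * (G.arc e).2.2.1 ≤ η
  gain : 2 * ∑ e ∈ G.al, c e * (G.arc e).2.2.2 + κ * η ≤ 0

/-- The gradient is a difference of potentials, up to `K` times the length. -/
def Central (G : Gh) (K : ℕ) : Prop :=
  ∃ φ : ℕ → ℝ, ∀ e ∈ G.al,
    |((G.arc e).2.2.2 : ℝ) - (φ (G.arc e).2.1 - φ (G.arc e).1)| ≤ K * (G.arc e).2.2.1

end Gh

/-- The programs of the engine. The answer of `step` is `none` (central), `some none` (a flow has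
been pushed) or `some (some (e, d))` (the arc `e` has been removed, its flow was `d`). -/
structure Eng (σ : Type) where
  init : ℕ → ℕ → ℕ → M σ
  ins : σ → ℕ → RA → M σ
  step : σ → M (Option (Option (ℕ × ℤ)) × σ)

/-- The specification of the engine. `I B b κ η G s r φ`: the state `s` represents `G`; it has `r`
credits for removals and the credit `φ` for time. -/
structure EngOK {σ : Type} [Rep σ] (X : Eng σ) (c : ℕ) (g : ℕ → ℕ)
    (I : ℕ → ℕ → ℕ → ℕ → Gh → σ → ℕ → ℕ → Prop) : Prop where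
  iinit : Impl fun p : ℕ × ℕ × ℕ => X.init p.1 p.2.1 p.2.2
  iins : Impl fun p : σ × ℕ × RA => X.ins p.1 p.2.1 p.2.2
  istep : Impl X.step
  sub : ∀ a, Sub fun N => g (a * Nat.size N + a)
  mono : Monotone g
  init : ∀ B b κ η, κ ≤ 2 ^ b → 2 ^ (c * (b + 1)) ≤ η → η * 2 ^ (c * (b + 1)) ≤ B →
    Vt b B (X.init b κ η) fun s t => ∃ φ, I B b κ η Gh.empty s 0 φ ∧ t + φ ≤ g b
  ins : ∀ B b κ η G s r φ e (a : RA), I B b κ η G s r φ → G.n < 2 ^ b → e ∉ G.al → e ≤ 2 ^ b →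
    a.1 ≤ 2 ^ b → a.2.1 ≤ 2 ^ b → 1 ≤ a.2.2.1 → a.2.2.1 ≤ 2 ^ b → a.2.2.2.natAbs ≤ 2 ^ b →
    Vt b B (X.ins s e a) fun s' t => ∃ φ', I B b κ η (G.ins e a) s' r φ' ∧ t + φ' ≤ φ + g b
  step : ∀ B b κ η G s r φ, I B b κ η G s r φ → Vt b B (X.step s) fun o t =>
    o.1.elim (G.Clean (g b * η) ∧ G.Central (g b * κ) ∧ t ≤ φ + g b) fun o' =>
      o'.elim (G.Clean (g b * η) ∧ ∃ c φ', G.Move κ η c ∧
          I B b κ η (G.push c) o.2 (r + g b) φ' ∧ t + φ' ≤ φ + g b)
        fun p => p.1 ∈ G.al ∧ p.2 = G.dl p.1 ∧ ∃ r' φ', r = r' + 1 ∧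
          I B b κ η (G.del p.1) o.2 r' φ' ∧ t + φ' ≤ φ + g b

/-- There is an engine. -/
def ENG : Prop :=
  ∃ (σ : Type) (_ : Rep σ) (X : Eng σ) (c : ℕ) (g : ℕ → ℕ)
    (I : ℕ → ℕ → ℕ → ℕ → Gh → σ → ℕ → ℕ → Prop), EngOK X c g I

end Vale.Agent.P305M
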