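import Vale.Agent.P305M.Tick

/-!
# The core of the engine from its blocks
-/

namespace Vale.Agent.P305M

open Vale.Agent.P305E Vale.Agent.P305C Vale.Agent.P305Y Finset

/-- The constant for the word size. -/
def cC (c : ℕ) : ℕ := (c + 4) * (2 ^ pm c * 256 + 1)

theorem cC_ge (c b : ℕ) : (c + 4) * (b1 c (rt b) + 1) ≤ cC c * (b + 1) := by
  have := b1_rt_le c b
  rw [cC, mul_assoc]
  exact Nat.mul_le_mul_left _ (by rw [add_mul]; omega)

/-- The initial state. -/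
def cinit (c b κ : ℕ) : M CS := do
  let r ← rtP b
  let r4 ← num (r * r * (r * r))
  let r6 ← num (r4 * (r * r))
  let r7 ← num (r6 * r)
  let b' ← num (2 ^ pm c * (r7 * r))
  let q ← pow2 (← num (2 ^ pm c * r7))
  let k ← pow2 (← num (6 * pw c * c * r4))
  let kl ← pow2 (← num (32 * pw c * c ^ 2 * r6))
  pure ⟨st0, 0, b', r, q, k, kl, κ, r4⟩

theorem impl_cinit (c : ℕ) : Impl fun p : ℕ × ℕ => cinit c p.1 p.2 := by
  unfold cinit st0 lvl0
  generalize 2 ^ pm c = x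
  generalize 6 * pw c * c = y
  generalize 32 * pw c * c ^ 2 = z
  fun_prop

theorem cinit_tri {x : Cx} {c b κ : ℕ} (hc : 1 ≤ c) (hB : 2 ^ b1 c (rt b) ≤ x.B) :
    Tri x (cinit c b κ) fun s t => s = ⟨st0, 0, paOf c b κ⟩ ∧ t ≤ 4 * (b + 2) := by
  have hr := two_le_rt b
  have a1 := lt_rt_pow b
  have a2 := le_b1 (c := c) hr
  have a3 := r4_le hr
  have a4 : b1 c (rt b) < 2 ^ b1 c (rt b) := Nat.lt_two_pow_self
  have a5 := eg_ge' hc hr
  have a6 := eg_le (c := c) hr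
  have a7 := ekL_le hc hr
  have a8 := ek_le_ekL hc hr
  have a9 : rt b ^ 6 ≤ rt b ^ 8 := Nat.pow_le_pow_right (by omega) (by omega)
  have a10 : rt b ^ 7 ≤ rt b ^ 8 := Nat.pow_le_pow_right (by omega) (by omega)
  have b1' := two_pow_le a7
  have b2 := two_pow_le a8
  have b3 := two_pow_le (show eq' c (rt b) ≤ b1 c (rt b) by omega)
  have e4 : ∀ r : ℕ, r * r * (r * r) = r ^ 4 := fun r => by ring
  have e6 : ∀ r : ℕ, r ^ 4 * (r * r) = r ^ 6 := fun r => by ring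
  have e7 : ∀ r : ℕ, r ^ 6 * r = r ^ 7 := fun r => by ring
  have e8 : ∀ r : ℕ, r ^ 7 * r = r ^ 8 := fun r => by ring
  refine (rtP_tri (by omega)).bind ?_
  rintro _ t ⟨rfl, ht⟩
  simp only [e4, e6, e7, e8, Tri_bind, Tri_num, Tri_pow2, Tri_pure]
  unfold b1 eq' ek ekL at *
  exact ⟨by omega, by omega, by omega, by omega, by omega, by omega, by omega, by omega, by omega,
    by omega, rfl, by omega⟩

/-- The invariant of the core. -/
structure CI (c B b κ : ℕ) (G : Gh) (s : CS) (φ : ℕ) : Prop where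
  pa : s.pa = paOf c b κ
  kap : κ ≤ 2 ^ b
  B : 2 ^ (cC c * (b + 1)) ≤ B
  n : G.n ≤ 2 ^ b
  t : s.t + G.al.card = 2 * G.n
  si : SI (piOf c c b κ) s.st (rt b ^ 4)
  ri : RI s.st G
  sz : Sz c (rt b) s.t 0 s.st
  phi : φ = phi (piOf c c b κ) c (rt b) s.t s.st

theorem Sz.event {c b κ t : ℕ} {s s' : St} (hc : 1 ≤ c) (h : Sz c (rt b) t 0 s)
    (he : EvRes (piOf c c b κ) s s') (hn : s'.nx ≤ s.nx + 1) : Sz c (rt b) t 1 s' := by
  refine ⟨fun j hj => ?_, fun j hj => (he.lv j).1 ▸ h.K j hj, fun j hj => (he.lv j).1 ▸ h.P j hj,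
    by have := h.nx; omega⟩
  have a := he.pend j hj.le
  have a' := h.pend j hj
  have a'' := pi_evE (κ := κ) hc le_rfl hj
  rw [mul_add] at a' ⊢
  omega

theorem phi_event {π : Par} {c r t : ℕ} {s s' : St} (he : EvRes π s s') :
    phi π c r t s' = phi π c r t s := by
  simp only [phi, cdC, fun j => (he.lv j).2.2]

theorem CI.nx {c B b κ φ : ℕ} {G : Gh} {s : CS} (h : CI c B b κ G s φ) (hc : 1 ≤ c) :
    s.st.nx ≤ 2 ^ b1 c (rt b) := by
  have a := nx_bound (b := b) (t := s.t) hc le_rfl (by have := h.t; have := h.n; omega)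
  have := h.sz.nx
  omega

theorem CI.big {c B b κ φ : ℕ} {G : Gh} {s : CS} (h : CI c B b κ G s φ) :
    2 ^ (c * (b1 c (rt b) + 1)) ≤ B ∧ 2 ^ (3 * b1 c (rt b)) + rt b ^ 4 + 2 ≤ B ∧
      2 ^ (3 * b1 c (rt b)) ≤ 2 ^ (cC c * (b + 1)) := by
  have a := cC_ge c b
  have a1 := le_b1 (c := c) (two_le_rt b)
  have a2 := r4_le (two_le_rt b)
  have a3 : 3 * b1 c (rt b) < 2 ^ (3 * b1 c (rt b)) := Nat.lt_two_pow_self
  have a4 := two_pow_le (show 3 * b1 c (rt b) + 2 ≤ cC c * (b + 1) by rw [add_mul] at a; omega)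
  have a5 := h.B
  rw [pow_add] at a4
  exact ⟨(two_pow_le (by rw [add_mul] at a; omega)).trans h.B, by omega, by omega⟩

theorem small_le {c b κ : ℕ} (hc : 1 ≤ c) :
    8 * ((piOf c c b κ).p (rt b ^ 4) + rt b ^ 4 + 2) ≤ 2 ^ eg c (rt b) ∧
    ((rt b ^ 4 + 1) * (piOf c c b κ).γ + 1) ^ (rt b ^ 4 + 1) ≤ 2 ^ eg c (rt b) ∧
    (piOf c c b κ).γ ^ (rt b ^ 4 + 1) ≤ 2 ^ eg c (rt b) ∧ 4 * (b + 2) ≤ 2 ^ eg c (rt b) := by
  have hr := two_le_rt b
  have a1 := pi_cred (b := b) (κ := κ) hc le_rfl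
  have a2 := eg_ge' hc hr
  have a3 := pi_gam (c₀ := c) (b := b) (κ := κ) le_rfl
  have a4 : rt b ^ 4 ≤ 2 ^ (4 * rt b) := by
    rw [mul_comm, pow_mul]
    exact Nat.pow_le_pow_left Nat.lt_two_pow_self.le 4
  have a5 : 4 * rt b ≤ eγ c (rt b) := by
    have := pow_le_mono hc hr 1 (j := 1) (j' := 2) (by omega)
    rw [pow_one, pow_one] at this
    unfold eγ
    omega
  have a6 := r4_ge hr
  refine ⟨le_trans (Nat.mul_le_mul_left _ ?_) a1, ?_,
    (pi_central le_rfl).trans (two_pow_le (by omega)), ?_⟩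
  · have : 1 ≤ cq c (rt b) := Nat.one_le_two_pow
    generalize cq c (rt b) = q at *
    generalize (piOf c c b κ).p (rt b ^ 4) = p
    generalize rt b ^ 4 = L
    have := Nat.mul_le_mul_right (L + 1) (Nat.mul_le_mul_left (40 + 8 * (p + 1)) this)
    nlinarith [Nat.zero_le (p * L)]
  · have a7 : (rt b ^ 4 + 1) * (piOf c c b κ).γ + 1 ≤ 2 ^ ((eγ c (rt b) + 3) * 4) := by
      have a8 := a4.trans (two_pow_le a5)
      have a9 : 1 ≤ 2 ^ eγ c (rt b) := Nat.one_le_two_pow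
      refine le_trans ?_ (two_pow_le (show eγ c (rt b) + 1 + (eγ c (rt b) + 2) ≤ _ by omega))
      rw [pow_add, pow_succ 2 (eγ c (rt b))]
      generalize (piOf c c b κ).γ = γ at *
      generalize 2 ^ (eγ c (rt b) + 2) = y at *
      have := Nat.mul_le_mul (show rt b ^ 4 + 1 ≤ 2 ^ eγ c (rt b) * 2 by omega) a3
      rw [mul_add] at this
      omega
    refine (Nat.pow_le_pow_left a7 _).trans ?_
    rw [← pow_mul, mul_assoc]
    exact two_pow_le (by omega)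
  · have a7 := lt_rt_pow b
    have a8 : rt b ^ 8 = rt b ^ 4 * rt b ^ 4 := by ring
    have a9 : rt b ^ 4 < 2 ^ rt b ^ 4 := Nat.lt_two_pow_self
    have a10 := Nat.mul_le_mul a9.le a9.le
    have a11 := two_pow_le (show rt b ^ 4 + rt b ^ 4 + 2 ≤ eg c (rt b) by omega)
    rw [pow_add, pow_add] at a11
    omega

/-- The programs of the core. -/
def coreOf (c : ℕ) (kill : ℕ × St × ℕ → M (List ℕ × St)) (add : ℕ × St × ℕ × RA → M St)
    (reb : Pa × ℕ × St → M (List ℕ × St)) (cand : ℕ × St → M (Option (SW × ℕ) × St)) :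
    Core CS where
  view s := s.st.view
  init := cinit c
  add s e a := do
    let s' ← add (s.pa.2.2.2.2.2.2, s.st, e, a)
    tick reb s' s.t s.pa
  kill s z := do
    let o ← kill (s.pa.2.2.2.2.2.2, s.st, z)
    let o' ← tick reb o.2 s.t s.pa
    let l ← appendP o.1 o'.1
    pure (l, o'.2)
  cand s := do
    let o ← cand (s.pa.2.2.2.2.2.2, s.st)
    pure (o.1, ⟨o.2, s.t, s.pa⟩)

/-- **The core of the engine.** -/
theorem core_of (h1 : EVENT) (h2 : REBUILD) (h3 : CAND) : CORE := by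
  obtain ⟨kill, add, ik, ia, hev⟩ := h1
  obtain ⟨reb, c, ir, hc, hreb⟩ := h2
  obtain ⟨cand, ic, hcd⟩ := h3
  have it := impl_tick ir
  refine ⟨CS, inferInstance, coreOf c kill add reb cand, cC c, fun b => 2 ^ eg c (rt b), CI c,
    ?_, ?_, ?_, ?_, ?_, ?_, impl_cinit c, ?_, ?_, ?_, fun a => sub_rt _ a,
    fun b b' h => two_pow_le (Nat.mul_le_mul_left _ (Nat.pow_le_pow_left (rt_mono h) 7)),
    fun B b κ G s φ h => ⟨?_, h.B⟩, fun B b κ G s φ d h => { h with ri := h.ri.push d }, ?_, ?_,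
    ?_, ?_⟩
  · exact (by fun_prop : Pure fun p : CS × ℕ => p.1.st.1.2.1.get p.2)
  · exact (by fun_prop : Pure fun p : CS × ℕ => p.1.st.2.1.2.2.get p.2)
  · exact (by fun_prop : Pure fun p : CS × ℕ => (p.1.st.1.1.get p.2).2.2.1)
  · exact (by fun_prop : Pure fun p : CS × ℕ => p.1.st.2.1.2.1.get p.2)
  · exact (by fun_prop : Pure fun p : CS × ℕ => (p.1.st.1.1.get p.2).2.2.2)
  · exact (by fun_prop : Pure fun p : CS × ℕ => p.1.st.2.1.1.get p.2)
  · exact Impl.bind (by fun_prop) (it.comp (g := fun p : (CS × ℕ × RA) × St =>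
      ⟨p.2, p.1.1.t, p.1.1.pa⟩) (by fun_prop))
  · exact Impl.bind (by fun_prop) (Impl.bind (it.comp (g := fun p : (CS × ℕ) × List ℕ × St =>
      ⟨p.2.2, p.1.1.t, p.1.1.pa⟩) (by fun_prop)) (by fun_prop))
  · exact Impl.bind (by fun_prop) (by fun_prop)
  · obtain ⟨a1, a2, -, -⟩ := small_le (b := b) (κ := κ) hc
    have a3 := h.big.2.2
    exact h.si.view_ok (piOf_ok hc le_rfl) h.ri (((h.nx hc).trans (two_pow_le (by omega))).trans a3)
      (((pi_M hc le_rfl).trans (two_pow_le (by omega))).trans a3)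
      (by change (piOf c c b κ).p (rt b ^ 4) ≤ _; omega) (by change rt b ^ 4 + 2 ≤ _; omega) a2
  · intro B b κ hκ hB
    have a := cC_ge c b
    refine Vt.of_tri (cn := true) ((cinit_tri hc ((two_pow_le ?_).trans hB)).mono ?_)
    · rw [add_mul] at a
      omega
    · rintro _ t ⟨rfl, ht⟩
      refine ⟨_, ⟨rfl, hκ, hB, Nat.zero_le _, rfl, si0 _ _, ri0, ⟨?_, ?_, ?_, ?_⟩, rfl⟩, ?_⟩
      · simp [st0, St.pend]
      · simp [st0, St.L, lvl0, Lvl.K]
      · simp [st0, St.L, lvl0, Lvl.P]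
      · simp [st0, St.nx, cred_zero]
      · have := (small_le (b := b) (κ := κ) hc).2.2.2
        simp only [phi, cred_zero, cdC, st0, St.rem, Arr.get_const, List.length_nil, sum_const_zero]
        omega
  · rintro B b κ G ⟨s, t, p⟩ φ e a h hn he - b1 b2 b3 b4 b5
    obtain rfl : p = paOf c b κ := h.pa
    obtain ⟨a1, a2, -⟩ := h.big
    have a3 : s.nx ≤ _ := (h.nx hc).trans (two_pow_le (show _ ≤ 3 * P305M.b1 c (rt b) by omega))
    have a4 : t + _ = _ := h.t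
    have a5 := pi_evT (b := b) (κ := κ) hc le_rfl
    refine Vt.tbind (cn := true) ((hev ⟨B, true⟩ (piOf c c b κ) s (piOf_ok hc le_rfl)
      (h.si.up (Nat.le_succ _)) (by change s.nx + rt b ^ 4 + 2 ≤ B; omega)).2 e a
      b1 b2 b3 b4 b5) fun s' τ ⟨c1, c2, c3, c4⟩ => ?_
    obtain ⟨d1, d2⟩ := view_add h.ri h.si he c2 c3
    refine (tick_vt (t := t) hreb hc le_rfl h.kap a1 (by omega) c1.si
      (h.sz.event hc c1 (by simp [St.nx, c2]))).mono ?_
    rintro ⟨D, s'', t', p'⟩ τ' ⟨e1, e2, ⟨l, x, cost, u, e3⟩, e4⟩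
    obtain ⟨rfl, rfl⟩ := Prod.mk.inj e1
    obtain ⟨f1, f2, f3⟩ := view_reb d1 c1.si e3
    refine ⟨ext_trans d2 f2, f3, _, ⟨rfl, h.kap, h.B, hn, ?_, e3.si, f1, e2, rfl⟩, ?_⟩
    · simp only [Gh.ins, card_insert_of_notMem he] at a4 ⊢
      omega
    · rw [phi_event c1] at e4
      have := h.phi
      simp only at e4 this ⊢
      omega
  · rintro B b κ G ⟨s, t, p⟩ φ z e h hz he
    obtain rfl : p = paOf c b κ := h.pa
    obtain ⟨a1, a2, -⟩ := h.big
    have a3 : s.nx ≤ _ := (h.nx hc).trans (two_pow_le (show _ ≤ 3 * P305M.b1 c (rt b) by omega))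
    have a4 : t + _ = _ := h.t
    have a5 := pi_evT (b := b) (κ := κ) hc le_rfl
    obtain ⟨z1, z2⟩ := (view_ok_iff z).1 hz
    have he' : s.re z = some e := he
    have a6 := (h.ri.real z z1 z2 e he').1
    have a7 := card_erase_add_one a6
    have a8 := h.n
    refine Vt.tbind (cn := true) ((hev ⟨B, true⟩ (piOf c c b κ) s (piOf_ok hc le_rfl)
      (h.si.up (Nat.le_succ _)) (by change s.nx + rt b ^ 4 + 2 ≤ B; omega)).1 z z1
      z2 (by simp [he'])) fun o τ ⟨c1, c2, c3, c4, c5, c6, c7⟩ => ?_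
    obtain ⟨d1, d2, d3⟩ := view_kill h.ri c1.si z1 z2 he' c2 c3 c4 c5 c6
    refine (tick_vt (t := t) hreb hc le_rfl h.kap a1 (by omega) c1.si
      (h.sz.event hc c1 (by simp [St.nx, c2]))).bind ?_
    rintro ⟨D, s'', t', p'⟩ τ' ⟨e1, e2, ⟨l, x, cost, u, e3⟩, e4⟩
    obtain ⟨rfl, rfl⟩ := Prod.mk.inj e1
    obtain ⟨f1, f2, f3⟩ := view_reb d1 c1.si e3
    refine Vt.of_tri (cn := true) ?_
    simp only [Tri_bind, Tri_appendP, Tri_pure]
    refine ⟨ext_trans d2 f2, List.mem_append_left _ c5, fun y hy => ?_, _,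
      ⟨rfl, h.kap, h.B, h.n, ?_, e3.si, f1, e2, rfl⟩, ?_⟩
    · rcases List.mem_append.1 hy with q | q
      · refine (c6 y q).imp_left fun q => ?_
        change s''.re y = none
        rw [e3.re, d3, q]
      · exact Or.inl (f3 y q)
    · simp only [Gh.del] at a4 ⊢
      omega
    · rw [phi_event c1] at e4
      have := h.phi
      simp only [List.length_append] at e4 this ⊢
      omega
  · rintro B b κ G ⟨s, t, p⟩ φ h
    obtain rfl : p = paOf c b κ := h.pa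
    obtain ⟨-, a2, a3⟩ := h.big
    obtain ⟨a4, -, a5, -⟩ := small_le (b := b) (κ := κ) hc
    have a6 := eg_ge' hc (two_le_rt b)
    have a7 := eg_le (c := c) (two_le_rt b)
    refine Vt.tbind (cn := true) (hcd ⟨B, true⟩ (piOf c c b κ) s (2 ^ eg c (rt b))
      (2 ^ (3 * b1 c (rt b))) (piOf_ok hc le_rfl) h.si
      (by change (piOf c c b κ).p (rt b ^ 4) ≤ _; omega)
      ((Nat.mul_le_mul (pi_pL hc le_rfl) (pi_M hc le_rfl)).trans
        (by rw [← pow_add]; exact two_pow_le (by omega))) a2) ?_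
    rintro ⟨o, s'⟩ τ ⟨c1, c2, c3, c4, c5, c6⟩
    change τ + _ ≤ _ + 8 * ((piOf c c b κ).p (rt b ^ 4) + rt b ^ 4 + 2) at c5
    have e := h.phi
    simp only [phi] at e
    refine Vt.pure ?_
    cases o with
    | none =>
      obtain ⟨ψ, hψ⟩ := c6 G h.ri
      exact ⟨⟨ψ, fun e he => (hψ e he).trans (mul_le_mul_of_nonneg_right
        (Nat.cast_le.2 (Nat.mul_le_mul_right _ a5)) (Nat.cast_nonneg _))⟩, by omega⟩
    | some w =>
      refine ⟨view_congr c2 c3, { c6 with le := c6.le.trans a3, gle := c6.gle.trans a3 }, _,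
        ⟨rfl, h.kap, h.B, h.n, h.t, c1, h.ri.congr c2 c3, ⟨fun j hj => (c4 j).2.1 ▸ h.sz.pend j hj,
          fun j hj => (c4 j).1 ▸ h.sz.K j hj, fun j hj => (c4 j).1 ▸ h.sz.P j hj, ?_⟩, rfl⟩, ?_⟩
      · have := h.sz.nx
        simpa only [St.nx, show s'.1 = s.1 from c2] using this
      · simp only [phi] at c5 ⊢
        omega

end Vale.Agent.P305M
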