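import Vale.Agent.P305M.Defs

/-!
# The clock of the engine

The level `j ≤ L` is rebuilt at the times that are multiples of `K ^ (L - j)`.
-/

namespace Vale.Agent.P305M

open Vale.Agent.P305E Finset

/-- The first level that is rebuilt at time `t`. -/
def lv (K L t : ℕ) : ℕ := ((List.range L).filter fun j => t % K ^ (L - j) ≠ 0).length

theorem dvd_of_le {K L t i j : ℕ} (h : t % K ^ (L - i) = 0) (hij : i ≤ j) : t % K ^ (L - j) = 0 :=
  Nat.mod_eq_zero_of_dvd ((pow_dvd_pow K (by omega)).trans (Nat.dvd_of_mod_eq_zero h))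

theorem filter_range_length (p : ℕ → Prop) [DecidablePred p] (hp : ∀ i j, i ≤ j → p j → p i)
    (n j : ℕ) : j < ((List.range n).filter fun j => p j).length ↔ j < n ∧ p j := by
  induction n with
  | zero => simp
  | succ n ih =>
    rw [List.range_succ, List.filter_append, List.length_append]
    by_cases h : p n
    · have e : ((List.range n).filter fun j => p j) = List.range n :=
        List.filter_eq_self.2 fun i hi => by
          simpa using hp i n (List.mem_range.1 hi).le h
      rw [e]
      simp only [List.length_range, List.filter_cons, h, decide_true, if_true, List.filter_nil,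
        List.length_singleton]
      exact ⟨fun a => ⟨a, hp j n (by omega) h⟩, fun a => a.1⟩
    · simp only [List.filter_cons, h, decide_false, List.filter_nil, Bool.false_eq_true, if_false,
        List.length_nil, Nat.add_zero]
      rw [ih]
      refine ⟨fun a => ⟨by omega, a.2⟩, fun a => ⟨?_, a.2⟩⟩
      rcases Nat.lt_succ_iff_lt_or_eq.1 a.1 with e | e
      · exact e
      · exact absurd (e ▸ a.2) h

theorem lt_lv_iff {K L t j : ℕ} : j < lv K L t ↔ j < L ∧ t % K ^ (L - j) ≠ 0 :=
  filter_range_length (fun j => t % K ^ (L - j) ≠ 0) (fun _ _ hij h h' => h (dvd_of_le h' hij)) L j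

theorem lv_le (K L t : ℕ) : lv K L t ≤ L := by
  by_contra h
  have := (lt_lv_iff (K := K) (L := L) (t := t) (j := L)).1 (by omega)
  omega

theorem mod_of_lv_le {K L t j : ℕ} (h : lv K L t ≤ j) : t % K ^ (L - j) = 0 := by
  by_contra h'
  by_cases hj : j < L
  · have := (lt_lv_iff (K := K) (L := L) (t := t) (j := j)).2 ⟨hj, h'⟩
    omega
  · rw [show L - j = 0 by omega, pow_zero, Nat.mod_one] at h'
    exact h' rfl

/-- The level `0` is never rebuilt. -/
theorem lv_pos {K L t : ℕ} (h0 : 0 < t) (h : t < K ^ L) : 0 < lv K L t := by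
  refine lt_lv_iff.2 ⟨?_, ?_⟩
  · rcases Nat.eq_zero_or_pos L with rfl | a
    · simp at h; omega
    · exact a
  · rw [Nat.sub_zero, Nat.mod_eq_of_lt h]
    omega

theorem succ_mod_ne {m t : ℕ} (h : (t + 1) % m ≠ 0) : (t + 1) % m = t % m + 1 := by
  rcases Nat.eq_zero_or_pos m with rfl | hm
  · simp
  have h1 := Nat.mod_lt t hm
  have h2 : (t + 1) % m = (t % m + 1) % m := by simp
  rcases Nat.lt_or_ge (t % m + 1) m with a | a
  · rw [h2, Nat.mod_eq_of_lt a]
  · rw [h2, show t % m + 1 = m by omega, Nat.mod_self] at h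
    exact absurd rfl h

theorem succ_mod_eq {m t : ℕ} (hm : 0 < m) (h : (t + 1) % m = 0) : t % m + 1 = m := by
  have h1 := Nat.mod_lt t hm
  have h2 : (t + 1) % m = (t % m + 1) % m := by simp
  rcases Nat.lt_or_ge (t % m + 1) m with a | a
  · rw [h2, Nat.mod_eq_of_lt a] at h
    omega
  · omega

/-- A level that is not rebuilt is one unit older. -/
theorem age_lt {K L t j : ℕ} (h : j < lv K L (t + 1)) :
    (t + 1) % K ^ (L - j) = t % K ^ (L - j) + 1 := succ_mod_ne (lt_lv_iff.1 h).2

/-- The credit of the clock. -/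
def cred (K L t : ℕ) : ℕ := ∑ j ∈ range (L + 1), t % K ^ (L - j)

theorem cred_zero (K L : ℕ) : cred K L 0 = 0 := by simp [cred]

/-- The credit pays for the levels that are rebuilt. -/
theorem cred_succ {K : ℕ} (hK : 0 < K) (L t : ℕ) :
    ∑ j ∈ Icc (lv K L (t + 1)) L, K ^ (L - j) + cred K L (t + 1) = cred K L t + (L + 1) := by
  have e : Icc (lv K L (t + 1)) L = (range (L + 1)).filter fun j => lv K L (t + 1) ≤ j := by
    ext j
    simp only [mem_Icc, mem_filter, mem_range]
    omega
  have e' : L + 1 = ∑ _j ∈ range (L + 1), 1 := by simp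
  rw [e, sum_filter, cred, cred, ← sum_add_distrib]
  conv_rhs => rw [e', ← e']
  nth_rewrite 3 [e']
  rw [← sum_add_distrib]
  refine sum_congr rfl fun j _ => ?_
  split_ifs with h
  · rw [mod_of_lv_le h, succ_mod_eq (pow_pos hK _) (mod_of_lv_le h), Nat.add_zero]
  · rw [age_lt (by omega), Nat.zero_add]

end Vale.Agent.P305M
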