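import Vale.Agent.P305M.Par
import Vale.Agent.P305Y.Stub

/-!
# The parameters of the levels and the inequalities between them
-/

namespace Vale.Agent.P305M

open Vale.Agent.P305E Vale.Agent.P305Y Finset

/-- The parameters of the levels; `c₀` is the constant of the construction of a level. -/
def piOf (c₀ c b κ : ℕ) : Par :=
  parOf c₀ (b1 c (rt b)) (rt b) (2 ^ ek c (rt b)) (2 ^ ekL c (rt b)) κ (rt b ^ 4) (2 ^ b)

/-- The ratio of the periods of consecutive levels. -/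
def kK (r : ℕ) : ℕ := 2 ^ r ^ 4
/-- The bound for the size of a level. -/
def mOf (c r j : ℕ) : ℕ := 2 * 2 ^ eP c r * kK r * kK r ^ (r ^ 4 - j)
/-- The bound for the list `K` of a level. -/
def xOf (c r j : ℕ) : ℕ := 2 ^ eP c r * kK r ^ (r ^ 4 - j)
/-- The cost per unit of the clock. -/
def cq (c r : ℕ) : ℕ := 2 ^ (eq' c r + epL c r + eP c r + r ^ 4 + 2)
/-- The cost of the construction of a level. -/
def costOf (c r j : ℕ) : ℕ := cq c r * kK r ^ (r ^ 4 - j)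

theorem two_pow_le {a b : ℕ} (h : a ≤ b) : 2 ^ a ≤ 2 ^ b := Nat.pow_le_pow_right (by omega) h

theorem kK_pos (r : ℕ) : 0 < kK r := by unfold kK; positivity

theorem kK_pow (r : ℕ) : kK r ^ r ^ 4 = 2 ^ r ^ 8 := by
  rw [kK, ← pow_mul]; congr 1; ring

theorem parOf_ok {c b d k kl κ Lm M : ℕ} (hc : 1 ≤ c) (hd : 1 ≤ d) (hk : 1 ≤ k) (hl : k ≤ kl) :
    (parOf c b d k kl κ Lm M).OK := by
  have h1 : ∀ j, 1 ≤ (if j < Lm then k else kl) := fun j => by split_ifs <;> omega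
  refine ⟨Nat.pow_pos (by omega), Nat.pow_pos (Nat.mul_pos (by omega) (h1 0)), fun i j hij => ?_,
    fun j => ⟨h1 j, ?_⟩, fun _ => rfl⟩
  · refine Nat.pow_le_pow_left (Nat.mul_le_mul_left _ ?_) _
    split_ifs <;> omega
  · exact (Nat.le_mul_of_pos_left _ (by omega)).trans
      (Nat.le_self_pow (Nat.mul_pos hc hd).ne' _)

theorem mM_le {k kl Lm M : ℕ} (j : ℕ) (hj : j ≤ Lm) :
    mM (fun j => if j < Lm then k else kl) M j = k ^ j * M := by
  induction j with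
  | zero => simp [mM]
  | succ j ih => rw [mM, ih (by omega), if_pos (by omega)]; ring

variable {c₀ c b κ r : ℕ}

theorem le_b1 (hr : 2 ≤ r) : r ^ 8 ≤ b1 c r := (Nat.le_add_right _ _).trans (eg_le (c := c) hr)

theorem r4_le (hr : 2 ≤ r) : r ^ 4 ≤ r ^ 8 := Nat.pow_le_pow_right (by omega) (by omega)

theorem r4_ge (hr : 2 ≤ r) : 16 ≤ r ^ 4 := Nat.pow_le_pow_left hr 4

theorem eg_ge' (hc : 1 ≤ c) (hr : 2 ≤ r) :
    eq' c r + 2 * epL c r + eP c r + (eγ c r + 3) * (4 * (r ^ 4 + 1)) + 10 * r ^ 4 ≤ eg c r := by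
  have h0 : 2 * r ^ 6 ≤ r ^ 7 := by rw [pow_succ r 6]; nlinarith [Nat.zero_le (r ^ 6)]
  have h0' := Nat.mul_le_mul_left (pw c * c ^ 3) h0
  have h1 := mono_le hc hr (i := 2) (i' := 3) (j := 6) (j' := 6) (by omega) (by omega)
  have h2 := mono_le hc hr (i := 1) (i' := 3) (j := 6) (j' := 7) (by omega) (by omega)
  have h3 := mono_le hc hr (i := 1) (i' := 3) (j := 2) (j' := 7) (by omega) (by omega)
  have h4 := pow_le_mono hc hr 3 (j := 4) (j' := 7) (by omega)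
  have h5 := r4_ge hr
  unfold eq' epL eP eγ eg
  nlinarith

section
variable (h₀ : 1 ≤ c₀) (hc : c₀ ≤ c)
include h₀ hc

theorem piOf_ok : (piOf c₀ c b κ).OK :=
  parOf_ok h₀ (by have := two_le_rt b; omega) Nat.one_le_two_pow
    (two_pow_le (ek_le_ekL (by omega) (two_le_rt b)))

omit h₀ in
theorem pi_gam : (piOf c₀ c b κ).γ + 2 ≤ 2 ^ (eγ c (rt b) + 2) := by
  have h1 : (piOf c₀ c b κ).γ ≤ _ := gam_le (two_le_rt b) hc
  have h2 : 1 ≤ 2 ^ eγ c (rt b) := Nat.one_le_two_pow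
  rw [pow_add]
  omega

theorem pi_p {j : ℕ} (hj : j < rt b ^ 4) : (piOf c₀ c b κ).p j ≤ 2 ^ ep c (rt b) := by
  have := p_le (c' := c₀) (by omega : 1 ≤ c) (two_le_rt b) hc
  simpa only [piOf, parOf, if_pos hj] using this

theorem pi_pL : (piOf c₀ c b κ).p (rt b ^ 4) ≤ 2 ^ epL c (rt b) := by
  have := pL_le (c' := c₀) (by omega : 1 ≤ c) (two_le_rt b) hc
  simpa only [piOf, parOf, if_neg (lt_irrefl _)] using this

omit h₀ in
theorem pi_pow {j : ℕ} (hj : j ≤ rt b ^ 4) : ((piOf c₀ c b κ).γ + 2) ^ (3 * (j + 1)) ≤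
    2 ^ ((eγ c (rt b) + 3) * (4 * (rt b ^ 4 + 1))) := by
  refine (Nat.pow_le_pow_left (pi_gam hc) _).trans ?_
  rw [← pow_mul]
  exact two_pow_le (Nat.mul_le_mul (by omega) (by omega))

theorem pi_evE {j : ℕ} (hj : j < rt b ^ 4) : evE (piOf c₀ c b κ) j ≤ 2 ^ eP c (rt b) := by
  refine le_trans ?_ (two_pow_le (eP_ge (by omega) (two_le_rt b)))
  rw [pow_add, pow_add, evE, mul_assoc, mul_comm 2]
  exact Nat.mul_le_mul (Nat.mul_le_mul (pi_p h₀ hc hj) (pi_pow hc hj.le)) (by norm_num)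

theorem pi_evT : 8 * evT (piOf c₀ c b κ) ≤ 2 ^ eg c (rt b) := by
  have hr := two_le_rt b
  have h1 := Nat.mul_le_mul (pi_pL (b := b) (κ := κ) h₀ hc) (pi_pow (b := b) (κ := κ) hc le_rfl)
  have h2 : rt b ^ 4 + 1 ≤ 2 ^ rt b ^ 4 := Nat.lt_two_pow_self
  have h3 := Nat.mul_le_mul h2 h1
  have h4 := eg_ge' (c := c) (by omega) hr
  have h5 := r4_ge hr
  calc 8 * evT (piOf c₀ c b κ) = 640 * ((rt b ^ 4 + 1) * ((piOf c₀ c b κ).p (rt b ^ 4) *
        ((piOf c₀ c b κ).γ + 2) ^ (3 * (rt b ^ 4 + 1)))) := by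
        rw [evT, evE, show (piOf c₀ c b κ).Lm = rt b ^ 4 from rfl]; ring
    _ ≤ 2 ^ 10 * _ := Nat.mul_le_mul (by norm_num) h3
    _ ≤ _ := by
        rw [← pow_add, ← pow_add, ← pow_add]
        exact two_pow_le (by omega)

/-- The credit per unit of the clock. -/
theorem pi_cred : 8 * ((40 + 8 * ((piOf c₀ c b κ).p (rt b ^ 4) + 1)) * cq c (rt b) *
    (rt b ^ 4 + 1)) ≤ 2 ^ eg c (rt b) := by
  have hr := two_le_rt b
  have h1 := pi_pL (b := b) (κ := κ) h₀ hc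
  have h2 : rt b ^ 4 + 1 ≤ 2 ^ rt b ^ 4 := Nat.lt_two_pow_self
  have h3 : 1 ≤ 2 ^ epL c (rt b) := Nat.one_le_two_pow
  have h4 := eg_ge' (c := c) (by omega) hr
  have h5 := r4_ge hr
  calc _ ≤ 2 ^ 3 * ((2 ^ 6 * 2 ^ epL c (rt b)) * cq c (rt b) * 2 ^ rt b ^ 4) :=
        Nat.mul_le_mul (by norm_num) (Nat.mul_le_mul (Nat.mul_le_mul_right _ (by omega)) h2)
    _ ≤ _ := by
        rw [cq, ← pow_add, ← pow_add, ← pow_add, ← pow_add]
        exact two_pow_le (by omega)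

theorem pi_cost {j : ℕ} (hj : j ≤ rt b ^ 4) :
    2 ^ eq' c (rt b) * (piOf c₀ c b κ).p j * (mOf c (rt b) j + 1) ≤ costOf c (rt b) j := by
  have h1 := ((piOf_ok (b := b) (κ := κ) h₀ hc).pm hj).trans (pi_pL h₀ hc)
  have h2 : 0 < mOf c (rt b) j := by have := kK_pos (rt b); unfold mOf; positivity
  calc _ ≤ 2 ^ eq' c (rt b) * 2 ^ epL c (rt b) * (2 * mOf c (rt b) j) :=
        Nat.mul_le_mul (Nat.mul_le_mul_left _ h1) (by omega)
    _ = _ := by simp only [mOf, costOf, cq, kK, pow_add]; ring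

theorem pi_x (j : ℕ) : ((b1 c (rt b) + 2) ^ (c₀ * rt b) * mOf c (rt b) j) ^ 2 ≤
    2 ^ ek c (rt b) * xOf c (rt b) j ^ 2 :=
  calc _ ≤ (2 ^ eγ c (rt b) * mOf c (rt b) j) ^ 2 :=
        Nat.pow_le_pow_left (Nat.mul_le_mul_right _ (gam_le (two_le_rt b) hc)) 2
    _ = 2 ^ (2 * (rt b ^ 4 + 1 + eγ c (rt b))) * xOf c (rt b) j ^ 2 := by
        rw [mul_comm 2, pow_mul]
        simp only [mOf, xOf, kK, pow_add]
        ring
    _ ≤ _ := Nat.mul_le_mul_right _ (two_pow_le (ek_ge (by omega) (two_le_rt b)))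

omit h₀ in
theorem pi_central : (piOf c₀ c b κ).γ ^ (rt b ^ 4 + 1) ≤
    2 ^ ((eγ c (rt b) + 3) * (4 * (rt b ^ 4 + 1))) :=
  le_trans ((Nat.pow_le_pow_left (Nat.le_add_right _ 2) _).trans
    (Nat.pow_le_pow_right (by omega) (by omega))) (pi_pow hc le_rfl)

theorem pi_M : (piOf c₀ c b κ).M (rt b ^ 4 + 1) ≤ 2 ^ (2 * b1 c (rt b)) := by
  have hr := two_le_rt b
  have h1 := ek_mul_le (c := c) (r := rt b)
  have h2 := lt_rt_pow b
  have h3 := eg_ge' (c := c) (by omega) hr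
  have h4 := eg_le (c := c) hr
  have h5 : ekL c (rt b) ≤ epL c (rt b) := by
    have := mono_le (c := c) (by omega) hr (i := 2) (i' := 3) (j := 6) (j' := 7) (by omega) (by omega)
    unfold ekL epL
    nlinarith [Nat.zero_le (pw c * c ^ 3 * rt b ^ 7)]
  simp only [piOf, parOf, mM, if_neg (lt_irrefl _), mM_le _ le_rfl]
  rw [← pow_mul, ← pow_add, ← pow_add]
  exact two_pow_le (by omega)

end

theorem x_le_m {j : ℕ} (hj : j < r ^ 4) : 2 * xOf c r j = mOf c r (j + 1) := by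
  rw [xOf, mOf, show r ^ 4 - j = r ^ 4 - (j + 1) + 1 by omega, pow_succ]
  ring

theorem m_le (hc : 1 ≤ c) (hr : 2 ≤ r) {j : ℕ} (h1 : 1 ≤ j) (hj : j ≤ r ^ 4) :
    mOf c r j ≤ 2 ^ b1 c r := by
  have h2 := eg_ge' hc hr
  have h3 := eg_le (c := c) hr
  have h4 := r4_ge hr
  have h5 : kK r * kK r ^ (r ^ 4 - j) ≤ 2 ^ r ^ 8 := by
    rw [← pow_succ', ← kK_pow]
    exact Nat.pow_le_pow_right (kK_pos r) (by omega)
  calc mOf c r j = 2 ^ (eP c r + 1) * (kK r * kK r ^ (r ^ 4 - j)) := by rw [mOf]; ring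
    _ ≤ 2 ^ (eP c r + 1) * 2 ^ r ^ 8 := Nat.mul_le_mul_left _ h5
    _ ≤ _ := by
      rw [← pow_add]
      exact two_pow_le (by omega)

theorem m_last (hc : 1 ≤ c) (hr : 2 ≤ r) : 4 * mOf c r (r ^ 4) < 2 ^ ekL c r := by
  refine lt_of_lt_of_le ?_ (two_pow_le (ekL_ge hc hr))
  have : 0 < 2 ^ eP c r * 2 ^ r ^ 4 := by positivity
  simp only [mOf, kK, Nat.sub_self, pow_add]
  nlinarith

theorem ekL_le (hc : 1 ≤ c) (hr : 2 ≤ r) : ekL c r ≤ b1 c r := by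
  have h3 := eg_ge' hc hr
  have h4 := eg_le (c := c) hr
  have := mono_le hc hr (i := 2) (i' := 3) (j := 6) (j' := 7) (by omega) (by omega)
  have h5 : ekL c r ≤ epL c r := by
    unfold ekL epL
    nlinarith [Nat.zero_le (pw c * c ^ 3 * r ^ 7)]
  omega

theorem sum_cost (l : ℕ) : ∑ j ∈ Icc l (r ^ 4), costOf c r j =
    cq c r * ∑ j ∈ Icc l (r ^ 4), kK r ^ (r ^ 4 - j) := by
  simp only [costOf, mul_sum]

end Vale.Agent.P305M
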