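import Vale.Agent.P305M.Clock

/-!
# The parameters of the engine
-/

namespace Vale.Agent.P305M

open Vale.Agent.P305E

/-- About the eighth root of `b`. -/
def rt (b : ℕ) : ℕ := ((List.range (b + 2)).filter fun x => x ^ 8 ≤ b + 1).length

theorem lt_rt_iff {b j : ℕ} : j < rt b ↔ j < b + 2 ∧ j ^ 8 ≤ b + 1 :=
  filter_range_length (fun x => x ^ 8 ≤ b + 1)
    (fun _ _ hij h => (Nat.pow_le_pow_left hij 8).trans h) (b + 2) j

theorem two_le_rt (b : ℕ) : 2 ≤ rt b := lt_rt_iff.2 ⟨by omega, by simp⟩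

theorem lt_rt_pow (b : ℕ) : b + 1 < rt b ^ 8 := by
  by_contra h
  have h1 : rt b ≤ rt b ^ 8 := Nat.le_self_pow (by omega) _
  exact absurd ((lt_rt_iff (b := b) (j := rt b)).2 ⟨by omega, by omega⟩) (lt_irrefl _)

theorem rt_pow_le (b : ℕ) : rt b ^ 8 ≤ 256 * (b + 1) := by
  have h1 := two_le_rt b
  have h2 := ((lt_rt_iff (b := b) (j := rt b - 1)).1 (by omega)).2
  calc rt b ^ 8 ≤ (2 * (rt b - 1)) ^ 8 := Nat.pow_le_pow_left (by omega) 8
    _ = 256 * (rt b - 1) ^ 8 := by rw [mul_pow]; norm_num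
    _ ≤ _ := Nat.mul_le_mul_left _ h2

theorem rt_mono : Monotone rt := fun b b' h => by
  by_contra hc
  have h1 := (lt_rt_iff (b := b) (j := rt b')).1 (by omega)
  exact absurd ((lt_rt_iff (b := b') (j := rt b')).2 ⟨by omega, by omega⟩) (lt_irrefl _)

theorem sub_rt (A a : ℕ) : Sub fun N => 2 ^ (A * rt (a * Nat.size N + a) ^ 7) := by
  refine Sub.two_pow (Lin.const_mul A (Lin.of_pow_le 7 0 ((256 * (2 * a + 1)) ^ 7) fun N hN => ?_))
  have h1 := two_le_size hN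
  have h2 := rt_pow_le (a * Nat.size N + a)
  have h3 : a * Nat.size N + a + 1 ≤ (2 * a + 1) * Nat.size N := by nlinarith
  calc (rt (a * Nat.size N + a) ^ 7) ^ (7 + 1) = (rt (a * Nat.size N + a) ^ 8) ^ 7 := by ring
    _ ≤ (256 * ((2 * a + 1) * Nat.size N)) ^ 7 :=
      Nat.pow_le_pow_left (h2.trans (Nat.mul_le_mul_left _ h3)) 7
    _ = _ := by ring

/-- The exponent of the factor between `rt b ^ 8` and the number of bits inside the engine. -/
def pm (c : ℕ) : ℕ := 200 * c ^ 3 + 20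
/-- A constant. -/
def pw (c : ℕ) : ℕ := pm c + 9

theorem pm_big (c : ℕ) : 2 * (100 * pw c * c ^ 3 + 1) ≤ 2 ^ pm c := by
  have h1 : pm c ^ 2 ≤ 2 ^ pm c := by
    obtain ⟨n, hn⟩ : ∃ n, pm c = n + 4 := ⟨pm c - 4, by unfold pm; omega⟩
    rw [hn]
    clear hn
    induction n with
    | zero => norm_num
    | succ n ih =>
      rw [show n + 1 + 4 = n + 4 + 1 by ring, pow_succ 2]
      nlinarith [Nat.zero_le (n ^ 2), Nat.zero_le n]
  refine le_trans ?_ h1
  unfold pw pm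
  nlinarith [Nat.zero_le (c ^ 3)]

variable (c r : ℕ)

/-- The number of bits inside the engine. -/
def b1 : ℕ := 2 ^ pm c * r ^ 8
/-- The exponent of `q`. -/
def eq' : ℕ := 2 ^ pm c * r ^ 7
/-- The exponent of the small factor. -/
def eγ : ℕ := pw c * c * r ^ 2
/-- The exponent of `k`. -/
def ek : ℕ := 6 * pw c * c * r ^ 4
/-- The exponent of the large factor. -/
def ep : ℕ := 7 * pw c * c ^ 2 * r ^ 5
/-- The exponent of the emission per unit of time. -/
def eP : ℕ := 30 * pw c * c ^ 2 * r ^ 6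
/-- The exponent of `k` on the last level. -/
def ekL : ℕ := 32 * pw c * c ^ 2 * r ^ 6
/-- The exponent of the large factor on the last level. -/
def epL : ℕ := 33 * pw c * c ^ 3 * r ^ 7
/-- The exponent of the overhead. -/
def eg : ℕ := (2 ^ pm c + 100 * pw c * c ^ 3) * r ^ 7

variable {c r}

theorem pw_ge (c : ℕ) : 29 ≤ pw c := by unfold pw pm; omega

theorem b1_le (hr : 2 ≤ r) : b1 c r + 2 ≤ 2 ^ (pw c * r) := by
  have h1 : r ^ 8 ≤ 2 ^ (8 * r) := by
    rw [mul_comm, pow_mul]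
    exact Nat.pow_le_pow_left Nat.lt_two_pow_self.le 8
  have h2 : 2 ^ 1 ≤ 2 ^ (pm c + 8 * r) := Nat.pow_le_pow_right (by omega) (by omega)
  have h3 : b1 c r ≤ 2 ^ (pm c + 8 * r) := by
    rw [pow_add]
    exact Nat.mul_le_mul_left _ h1
  have h4 : 2 ^ (pm c + 8 * r + 1) ≤ 2 ^ (pw c * r) :=
    Nat.pow_le_pow_right (by omega) (by unfold pw; nlinarith)
  rw [pow_succ] at h4
  omega

theorem gam_le {c' : ℕ} (hr : 2 ≤ r) (h : c' ≤ c) : (b1 c r + 2) ^ (c' * r) ≤ 2 ^ eγ c r :=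
  calc (b1 c r + 2) ^ (c' * r) ≤ (2 ^ (pw c * r)) ^ (c' * r) := Nat.pow_le_pow_left (b1_le hr) _
    _ ≤ (2 ^ (pw c * r)) ^ (c * r) :=
      Nat.pow_le_pow_right (by positivity) (Nat.mul_le_mul_right _ h)
    _ = _ := by rw [← pow_mul, eγ]; congr 1; ring

theorem p_le_aux {c' e E : ℕ} (hr : 2 ≤ r) (h : c' ≤ c) (hE : (pw c * r + e) * (c * r) ≤ E) :
    ((b1 c r + 2) * 2 ^ e) ^ (c' * r) ≤ 2 ^ E :=
  calc ((b1 c r + 2) * 2 ^ e) ^ (c' * r) ≤ (2 ^ (pw c * r + e)) ^ (c' * r) := by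
        refine Nat.pow_le_pow_left ?_ _
        rw [pow_add]
        exact Nat.mul_le_mul_right _ (b1_le hr)
    _ ≤ (2 ^ (pw c * r + e)) ^ (c * r) :=
      Nat.pow_le_pow_right (by positivity) (Nat.mul_le_mul_right _ h)
    _ ≤ _ := by
      rw [← pow_mul]
      exact Nat.pow_le_pow_right (by omega) hE

/-- Comparison of monomials. -/
theorem mono_le (hc : 1 ≤ c) (hr : 2 ≤ r) {i i' j j' : ℕ} (hi : i ≤ i') (hj : j ≤ j') :
    pw c * c ^ i * r ^ j ≤ pw c * c ^ i' * r ^ j' :=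
  Nat.mul_le_mul (Nat.mul_le_mul_left _ (Nat.pow_le_pow_right hc hi))
    (Nat.pow_le_pow_right (by omega) hj)

theorem pow_le_mono (hc : 1 ≤ c) (hr : 2 ≤ r) (i : ℕ) {j j' : ℕ} (hj : j ≤ j') :
    29 * r ^ j ≤ pw c * c ^ i * r ^ j' :=
  Nat.mul_le_mul ((pw_ge c).trans (Nat.le_mul_of_pos_right _ (Nat.pow_pos hc)))
    (Nat.pow_le_pow_right (by omega) hj)

theorem p_le {c' : ℕ} (hc : 1 ≤ c) (hr : 2 ≤ r) (h : c' ≤ c) :
    ((b1 c r + 2) * 2 ^ ek c r) ^ (c' * r) ≤ 2 ^ ep c r := by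
  refine p_le_aux hr h ?_
  have := mono_le hc hr (i := 1) (i' := 2) (j := 2) (j' := 5) (by omega) (by omega)
  unfold ek ep
  nlinarith

theorem pL_le {c' : ℕ} (hc : 1 ≤ c) (hr : 2 ≤ r) (h : c' ≤ c) :
    ((b1 c r + 2) * 2 ^ ekL c r) ^ (c' * r) ≤ 2 ^ epL c r := by
  refine p_le_aux hr h ?_
  have := mono_le hc hr (i := 1) (i' := 3) (j := 2) (j' := 7) (by omega) (by omega)
  unfold ekL epL
  nlinarith

theorem ek_ge (hc : 1 ≤ c) (hr : 2 ≤ r) : 2 * (r ^ 4 + 1 + eγ c r) ≤ ek c r := by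
  have h1 := mono_le hc hr (i := 1) (i' := 1) (j := 2) (j' := 4) (by omega) (by omega)
  have h2 := pow_le_mono hc hr 1 (j := 4) (j' := 4) le_rfl
  have h3 : 1 ≤ r ^ 4 := Nat.pow_pos (by omega)
  unfold ek eγ
  nlinarith

theorem ekL_ge (hc : 1 ≤ c) (hr : 2 ≤ r) : eP c r + r ^ 4 + 4 ≤ ekL c r := by
  have h2 := pow_le_mono hc hr 2 (j := 4) (j' := 6) (by omega)
  have h3 : 1 ≤ r ^ 4 := Nat.pow_pos (by omega)
  unfold ekL eP
  nlinarith

theorem ek_le_ekL (hc : 1 ≤ c) (hr : 2 ≤ r) : ek c r ≤ ekL c r := by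
  have h1 := mono_le hc hr (i := 1) (i' := 2) (j := 4) (j' := 6) (by omega) (by omega)
  unfold ekL ek
  nlinarith [Nat.zero_le (pw c * c ^ 2 * r ^ 6)]

theorem ep_le_epL (hc : 1 ≤ c) (hr : 2 ≤ r) : ep c r ≤ epL c r := by
  have h1 := mono_le hc hr (i := 2) (i' := 3) (j := 5) (j' := 7) (by omega) (by omega)
  unfold epL ep
  nlinarith [Nat.zero_le (pw c * c ^ 3 * r ^ 7)]

/-- The emission of one event. -/
theorem eP_ge (hc : 1 ≤ c) (hr : 2 ≤ r) :
    ep c r + (eγ c r + 3) * (4 * (r ^ 4 + 1)) + 10 ≤ eP c r := by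
  have h1 := mono_le hc hr (i := 2) (i' := 2) (j := 5) (j' := 6) (by omega) (by omega)
  have h2 := mono_le hc hr (i := 1) (i' := 2) (j := 6) (j' := 6) (by omega) (by omega)
  have h3 := mono_le hc hr (i := 1) (i' := 2) (j := 2) (j' := 6) (by omega) (by omega)
  have h4 := pow_le_mono hc hr 2 (j := 4) (j' := 6) (by omega)
  have h5 : 2 ^ 4 ≤ r ^ 4 := Nat.pow_le_pow_left hr 4
  unfold ep eP eγ
  nlinarith

/-- The cost of a rebuild per unit of the clock. -/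
theorem eg_ge (hc : 1 ≤ c) (hr : 2 ≤ r) :
    eq' c r + epL c r + eP c r + (eγ c r + 3) * (4 * (r ^ 4 + 1)) + 10 * r ^ 4 ≤ eg c r := by
  have h1 := mono_le hc hr (i := 2) (i' := 3) (j := 6) (j' := 7) (by omega) (by omega)
  have h2 := mono_le hc hr (i := 1) (i' := 3) (j := 6) (j' := 7) (by omega) (by omega)
  have h3 := mono_le hc hr (i := 1) (i' := 3) (j := 2) (j' := 7) (by omega) (by omega)
  have h4 := pow_le_mono hc hr 3 (j := 4) (j' := 7) (by omega)
  have h5 : 2 ^ 4 ≤ r ^ 4 := Nat.pow_le_pow_left hr 4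
  unfold eq' epL eP eγ eg
  nlinarith

theorem eg_le (hr : 2 ≤ r) : r ^ 8 + eg c r ≤ b1 c r := by
  have h1 := pm_big c
  have h2 : 2 * r ^ 7 ≤ r ^ 8 := by rw [pow_succ r 7]; nlinarith [Nat.zero_le (r ^ 7)]
  have h3 := Nat.mul_le_mul_left (2 ^ pm c + 100 * pw c * c ^ 3) h2
  have h4 := Nat.mul_le_mul_right (r ^ 8) h1
  unfold eg b1
  nlinarith [Nat.zero_le (pw c * c ^ 3 * r ^ 8)]

theorem ek_mul_le : r ^ 8 + ek c r * r ^ 4 ≤ b1 c r := by
  have h1 := pm_big c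
  have h2 : c ≤ c ^ 3 := Nat.le_self_pow (by omega) c
  have h3 := Nat.mul_le_mul_left (pw c) h2
  have h4 : 1 + 6 * (pw c * c) ≤ 2 ^ pm c := by nlinarith
  have h5 := Nat.mul_le_mul_right (r ^ 8) h4
  unfold ek b1
  nlinarith

theorem eq'_mul : eq' c r * r = b1 c r := by unfold eq' b1; ring

theorem b1_rt_le (c b : ℕ) : b1 c (rt b) ≤ 2 ^ pm c * 256 * (b + 1) := by
  rw [b1, mul_assoc]
  exact Nat.mul_le_mul_left _ (rt_pow_le b)

/-- The program for `rt`. -/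
def rtP (b : ℕ) : M ℕ := do
  let n ← num (b + 2)
  let l ← rangeP n
  let l' ← filterP (fun x => decide (x * x * (x * x) * (x * x * (x * x)) ≤ b + 1)) l
  lenP l'

@[fun_prop] theorem impl_rtP {α : Type} [Rep α] {b : α → ℕ} (hb : Pure b) :
    Impl fun a => rtP (b a) := by
  unfold rtP
  fun_prop

theorem rtP_tri {x : Cx} {b : ℕ} (h : b + 2 ≤ x.B) :
    Tri x (rtP b) fun y t => y = rt b ∧ t ≤ 4 * (b + 2) := by
  have e : ∀ y : ℕ, y * y * (y * y) * (y * y * (y * y)) = y ^ 8 := fun y => by ring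
  have := List.length_filter_le (fun y => decide (y ^ 8 ≤ b + 1)) (List.range (b + 2))
  simp only [rtP, e, Tri_bind, Tri_num, Tri_rangeP, Tri_filterP, Tri_lenP, List.length_range] at *
  refine ⟨h, by omega, rfl, by omega⟩

/-- The program for `lv` with `K = 2 ^ e`. -/
def lvP (e L t : ℕ) : M ℕ := do
  let l ← rangeP L
  let ps ← mapM' (fun j => do pow2 (← num (e * (L - j)))) l
  let l' ← filterP (fun x => decide (t % x ≠ 0)) ps
  lenP l'

@[fun_prop] theorem impl_lvP {α : Type} [Rep α] {e L t : α → ℕ} (he : Pure e) (hL : Pure L)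
    (ht : Pure t) : Impl fun a => lvP (e a) (L a) (t a) := by
  unfold lvP
  fun_prop

theorem lvP_tri {x : Cx} {e L t : ℕ} (h : 2 ^ (e * L) ≤ x.B) (hL : L ≤ x.B) :
    Tri x (lvP e L t) fun y s => y = lv (2 ^ e) L t ∧ s ≤ 6 * L := by
  simp only [lvP, Tri_bind, Tri_rangeP]
  refine (Tri.mapM' (P := fun j y => y = (2 ^ e) ^ (L - j)) (T := fun _ => 0) fun j _ => ?_).mono
    fun ps s hs => ?_
  · have a : e * (L - j) ≤ e * L := Nat.mul_le_mul_left _ (by omega)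
    have a' : 2 ^ (e * (L - j)) ≤ 2 ^ (e * L) := Nat.pow_le_pow_right (by omega) a
    have a'' : e * (L - j) < 2 ^ (e * (L - j)) := Nat.lt_two_pow_self
    simp only [Tri_bind, Tri_num, Tri_pow2, pow_mul] at *
    exact ⟨by omega, by omega, trivial, le_rfl⟩
  · have e1 : ps = (List.range L).map fun j => (2 ^ e) ^ (L - j) := by
      have := hs.1
      rw [← List.forall₂_eq_eq_eq, List.forall₂_map_right_iff]
      exact this.flip.imp fun _ _ h => h
    have e2 := hs.2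
    have e3 := List.length_filter_le (fun j => decide (t % (2 ^ e) ^ (L - j) ≠ 0)) (List.range L)
    subst e1
    simp only [Tri_filterP, Tri_lenP, List.filter_map, List.length_map, List.length_range,
      Function.comp_def, List.map_const', List.sum_replicate, smul_eq_mul, mul_zero] at *
    exact ⟨by omega, rfl, by omega⟩

end Vale.Agent.P305M
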