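import Vale.Agent.P305M.Num
import Vale.Agent.P305Y.View

/-!
# One unit of the clock: the reconstruction of the levels that are due
-/

namespace Vale.Agent.P305M

open Vale.Agent.P305E Vale.Agent.P305C Vale.Agent.P305Y Finset

/-- The parameters that are stored. -/
abbrev Pa : Type := ℕ × ℕ × ℕ × ℕ × ℕ × ℕ × ℕ

/-- The state of the core: levels, clock, parameters. -/
structure CS where
  st : St
  t : ℕ
  pa : Pa

/-- Encoding. -/
def CS.enc (s : CS) : St × ℕ × Pa := (s.st, s.t, s.pa)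

instance : Rep CS := Rep.comap CS.enc

@[fun_prop] theorem CS.pst : Pure CS.st := Pure.of_comap CS.enc (h := fun p => p.1) (by fun_prop)
@[fun_prop] theorem CS.pt : Pure CS.t := Pure.of_comap CS.enc (h := fun p => p.2.1) (by fun_prop)
@[fun_prop] theorem CS.ppa : Pure CS.pa := Pure.of_comap CS.enc (h := fun p => p.2.2) (by fun_prop)
@[fun_prop] theorem CS.pmk {α : Type} [Rep α] {a : α → St} {b : α → ℕ} {c : α → Pa}
    (ha : Pure a) (hb : Pure b) (hc : Pure c) : Pure fun x => CS.mk (a x) (b x) (c x) :=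
  Pure.to_comap CS.enc (by unfold CS.enc; fun_prop)

/-- The stored parameters. -/
def paOf (c b κ : ℕ) : Pa :=
  (b1 c (rt b), rt b, 2 ^ eq' c (rt b), 2 ^ ek c (rt b), 2 ^ ekL c (rt b), κ, rt b ^ 4)

/-- The sizes of the lists at time `t`; after an event `u = 1`. -/
structure Sz (c r t u : ℕ) (s : St) : Prop where
  pend : ∀ j < r ^ 4, (s.pend j).length ≤ 2 ^ eP c r * (t % kK r ^ (r ^ 4 - j) + u)
  K : ∀ j < r ^ 4, (s.L j).K.length ≤ xOf c r j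
  P : ∀ j ≤ r ^ 4, (s.L j).P.length ≤ costOf c r j
  nx : s.nx + 40 * cq c r * cred (kK r) (r ^ 4) t ≤ t * (40 * cq c r * (r ^ 4 + 1) + 1) + u

/-- The credit for time. -/
def phi (π : Par) (c r t : ℕ) (s : St) : ℕ :=
  (40 + 8 * (π.p π.Lm + 1)) * cq c r * cred (kK r) (r ^ 4) t + cdC π s

/-- The clock advances and the levels that are due are rebuilt. -/
def tick (reb : Pa × ℕ × St → M (List ℕ × St)) (s : St) (t : ℕ) (p : Pa) : M (List ℕ × CS) := do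
  let t' ← num (t + 1)
  let l ← lvP p.2.2.2.2.2.2 p.2.2.2.2.2.2 t'
  let o ← reb (p, l, s)
  pure (o.1, ⟨o.2, t', p⟩)

theorem impl_tick {reb : Pa × ℕ × St → M (List ℕ × St)} (h : Impl reb) :
    Impl fun a : CS => tick reb a.st a.t a.pa := by
  unfold tick
  fun_prop

/-- The specification of the reconstruction. -/
def RebSpec (reb : Pa × ℕ × St → M (List ℕ × St)) (c : ℕ) : Prop :=
  ∀ (B e b d q k kl κ Lm M l₀ : ℕ) (m x cost : ℕ → ℕ) (s : St),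
    SI (parOf c b d k kl κ Lm M) s (Lm + 1) → 1 ≤ l₀ → l₀ ≤ Lm →
    (s.L (l₀ - 1)).K.length + (s.pend (l₀ - 1)).length ≤ m l₀ →
    (∀ j ≤ Lm, l₀ ≤ j → m j ≤ 2 ^ b ∧ (s.L j).P.length ≤ cost j ∧
      q * (parOf c b d k kl κ Lm M).p j * (m j + 1) ≤ cost j) →
    (∀ j < Lm, l₀ ≤ j → ((b + 2) ^ (c * d) * m j) ^ 2 ≤ k * x j ^ 2 ∧ x j ≤ m (j + 1)) →
    4 * m Lm < kl → 1 ≤ k → k ≤ kl → kl ≤ 2 ^ b → k ^ Lm * M ≤ 2 ^ b → κ ≤ 2 ^ b →
    1 ≤ d → d ≤ b → (b + 2) ^ d ≤ 2 ^ b → 2 ^ b ≤ q ^ d → 1 ≤ q → q ≤ 2 ^ b → e ≤ b → Lm ≤ b →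
    s.nx + 40 * ∑ j ∈ Icc l₀ Lm, cost j ≤ 2 ^ b → 2 ^ (c * (b + 1)) ≤ B →
    Vt e B (reb ((b, d, q, k, kl, κ, Lm), l₀, s)) fun o t =>
      RbRes (parOf c b d k kl κ Lm M) l₀ x cost s o.2 o.1 t

theorem cdC_reb {π : Par} {l₀ t : ℕ} {x cost : ℕ → ℕ} {s s' : St} {D : List ℕ}
    (h : RbRes π l₀ x cost s s' D t) :
    cdC π s' ≤ cdC π s + 8 * (π.p π.Lm + 1) * ∑ j ∈ Icc l₀ π.Lm, cost j := by
  have e : Icc l₀ π.Lm = (range (π.Lm + 1)).filter fun j => l₀ ≤ j := by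
    ext j
    simp only [mem_Icc, mem_filter, mem_range]
    omega
  rw [cdC, cdC, ← mul_add, e, sum_filter, ← sum_add_distrib]
  refine Nat.mul_le_mul_left _ (sum_le_sum fun j hj => ?_)
  split_ifs with q
  · have := (h.high j (by simpa [Nat.lt_succ_iff] using hj) q).2.2
    omega
  · simp only [St.rem, h.low j (by omega)]
    omega

theorem ar1 {p q L g : ℕ} (h : 8 * ((40 + 8 * (p + 1)) * q * L) ≤ g) (h4 : 0 < q * L) :
    40 * q * L + 1 ≤ g := by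
  nlinarith [Nat.zero_le (p * (q * L))]

theorem ar2 {n q S c c' t L : ℕ} (h : n + 40 * q * c ≤ t * (40 * q * L + 1) + 1)
    (cs : S + c' = c + L) : n + 40 * q * S + 40 * q * c' ≤ (t + 1) * (40 * q * L + 1) := by
  have := congrArg (40 * q * ·) cs
  simp only [mul_add] at this
  nlinarith

theorem ar3 {p q S c c' L g τ τ' D n n' C C' u : ℕ} (b1 : τ' + D + n' ≤ n + 40 * (q * S))
    (b2 : C' ≤ C + 8 * (p + 1) * (q * S)) (b3 : n ≤ n') (b4 : 8 * ((40 + 8 * (p + 1)) * q * L) ≤ g)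
    (b5 : 8 * u ≤ g) (hτ : τ ≤ u) (cs : S + c' = c + L) :
    8 * (τ + (τ' + 0) + D + ((40 + 8 * (p + 1)) * q * c' + C')) ≤
      8 * ((40 + 8 * (p + 1)) * q * c + C) + 2 * g := by
  have := congrArg ((40 + 8 * (p + 1)) * q * ·) cs
  nlinarith

theorem nx_bound {c₀ c b t : ℕ} (h₀ : 1 ≤ c₀) (hc : c₀ ≤ c) (ht : t ≤ 2 ^ (b + 1)) :
    t * (40 * cq c (rt b) * (rt b ^ 4 + 1) + 1) ≤ 2 ^ b1 c (rt b) := by
  have h1 := pi_cred (b := b) (κ := 0) h₀ hc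
  have h2 := eg_le (c := c) (two_le_rt b)
  have h3 := lt_rt_pow b
  have h4 : 0 < cq c (rt b) * (rt b ^ 4 + 1) :=
    Nat.mul_pos (Nat.pow_pos (by omega)) (Nat.succ_pos _)
  refine (Nat.mul_le_mul ht (ar1 h1 h4)).trans ?_
  rw [← pow_add]
  exact two_pow_le (by omega)

theorem tick_vt {reb : Pa × ℕ × St → M (List ℕ × St)} {c₀ c B b κ t : ℕ} {s : St}
    (hreb : RebSpec reb c₀) (h₀ : 1 ≤ c₀) (hc : c₀ ≤ c) (hκ : κ ≤ 2 ^ b)
    (hB : 2 ^ (c₀ * (b1 c (rt b) + 1)) ≤ B) (ht : t < 2 ^ (b + 1))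
    (hs : SI (piOf c₀ c b κ) s (rt b ^ 4 + 1)) (hz : Sz c (rt b) t 1 s) :
    Vt b B (tick reb s t (paOf c b κ)) fun o τ => (o.2.t, o.2.pa) = (t + 1, paOf c b κ) ∧
      Sz c (rt b) (t + 1) 0 o.2.st ∧
      (∃ l x cost τ', RbRes (piOf c₀ c b κ) l x cost s o.2.st o.1 τ') ∧
      8 * (τ + o.1.length + phi (piOf c₀ c b κ) c (rt b) (t + 1) o.2.st) ≤
        8 * phi (piOf c₀ c b κ) c (rt b) t s + 2 * 2 ^ eg c (rt b) := by
  have hr := two_le_rt b
  have hc1 : 1 ≤ c := by omega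
  have a1 := lt_rt_pow b
  have a2 := le_b1 (c := c) hr
  have a3 := r4_le hr
  have a4 := r4_ge hr
  have a5 := eg_ge' hc1 hr
  have a6 := eg_le (c := c) hr
  have hB' : 2 ^ (b1 c (rt b) + 1) ≤ B := (two_pow_le (Nat.le_mul_of_pos_left _ h₀)).trans hB
  have a7 : 2 ^ (b + 1) ≤ 2 ^ rt b ^ 8 := two_pow_le (by omega)
  have a8 : 2 ^ rt b ^ 8 ≤ 2 ^ (b1 c (rt b) + 1) := two_pow_le (by omega)
  have a9 : rt b ^ 8 < 2 ^ rt b ^ 8 := Nat.lt_two_pow_self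
  have a10 : 2 ^ (b + 1) < 2 ^ rt b ^ 8 := Nat.pow_lt_pow_right (by omega) a1
  refine Vt.num_bind (by omega) (Vt.tbind (cn := true) (lvP_tri (e := rt b ^ 4) (L := rt b ^ 4)
    (by rw [← pow_add]; exact a8.trans hB') (by change rt b ^ 4 ≤ B; omega)) ?_)
  rintro _ τ ⟨rfl, hτ⟩
  obtain ⟨l, hl⟩ : ∃ l, l = lv (kK (rt b)) (rt b ^ 4) (t + 1) := ⟨_, rfl⟩
  have l1 : 1 ≤ l := hl ▸ lv_pos (by omega) (by rw [kK_pow]; omega)
  have l2 : l ≤ rt b ^ 4 := hl ▸ lv_le _ _ _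
  have cs := cred_succ (kK_pos (rt b)) (rt b ^ 4) t
  rw [← hl] at cs
  have nb := nx_bound (b := b) (t := t + 1) h₀ hc (by omega)
  have z4 := ar2 hz.nx cs
  rw [show lv (2 ^ rt b ^ 4) (rt b ^ 4) (t + 1) = l from hl.symm]
  refine (hreb B b _ _ _ _ _ κ _ (2 ^ b) l (mOf c (rt b)) (xOf c (rt b)) (costOf c (rt b)) s hs l1
    l2 ?_ (fun j hj hj' => ⟨m_le hc1 hr (by omega) hj, hz.P j hj, pi_cost h₀ hc hj⟩)
    (fun j hj _ => ⟨pi_x h₀ hc j, by have := x_le_m (c := c) hj; omega⟩) (m_last hc1 hr)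
    Nat.one_le_two_pow (two_pow_le (ek_le_ekL hc1 hr)) (two_pow_le (ekL_le hc1 hr)) ?_
    (hκ.trans (two_pow_le (by omega))) (by omega)
    ((Nat.le_self_pow (by omega) _).trans a2) ?_ ?_ Nat.one_le_two_pow (two_pow_le (by omega))
    (by omega) (by omega) ?_ hB).bind fun o τ' ho => Vt.pure ⟨rfl, ⟨?_, ?_, ?_, ?_⟩,
      ⟨_, _, _, _, ho⟩, ?_⟩
  · have b1 := hz.K (l - 1) (by omega)
    have b2 := hz.pend (l - 1) (by omega)
    have b3 := x_le_m (c := c) (r := rt b) (j := l - 1) (by omega)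
    have b4 := Nat.mod_lt t (Nat.pow_pos (n := rt b ^ 4 - (l - 1)) (kK_pos (rt b)))
    have b5 := Nat.mul_le_mul_left (2 ^ eP c (rt b)) (Nat.succ_le_of_lt b4)
    rw [show l - 1 + 1 = l by omega] at b3
    unfold xOf at b1 b3
    simp only [Nat.succ_eq_add_one] at b5
    omega
  · rw [← pow_mul, ← pow_add]
    have := ek_mul_le (c := c) (r := rt b)
    exact two_pow_le (by omega)
  · have := gam_le (c' := 1) hr hc1
    rw [one_mul] at this
    have e : eγ c (rt b) ≤ (eγ c (rt b) + 3) * (4 * (rt b ^ 4 + 1)) :=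
      (Nat.le_add_right _ 3).trans (Nat.le_mul_of_pos_right _ (by omega))
    exact this.trans (two_pow_le (by omega))
  · rw [← pow_mul, eq'_mul]
  · rw [sum_cost, ← mul_assoc]
    omega
  · intro j hj
    rcases Nat.lt_or_ge j l with q | q
    · have := hz.pend j hj
      rw [age_lt (hl ▸ q)]
      simpa only [St.pend, ho.low j q] using this
    · simp [(ho.high j hj.le q).1]
  · intro j hj
    rcases Nat.lt_or_ge j l with q | q
    · simpa only [St.L, ho.low j q] using hz.K j hj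
    · exact (ho.high j hj.le q).2.1
  · intro j hj
    rcases Nat.lt_or_ge j l with q | q
    · simpa only [St.L, ho.low j q] using hz.P j hj
    · exact (Nat.le_add_right _ _).trans (ho.high j hj q).2.2
  · have b1 := ho.time
    change _ ≤ _ + 40 * ∑ j ∈ Icc l (rt b ^ 4), _ at b1
    rw [sum_cost, ← mul_assoc] at b1
    change o.2.nx + _ ≤ _
    omega
  · have b1 := ho.time
    have b2 := cdC_reb ho
    have b3 := ho.nx
    have b4 := pi_cred (b := b) (κ := κ) h₀ hc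
    have b5 : 8 * (6 * rt b ^ 4) ≤ 2 ^ eg c (rt b) := by
      have : rt b ^ 4 < 2 ^ rt b ^ 4 := Nat.lt_two_pow_self
      have := two_pow_le (show rt b ^ 4 + 6 ≤ eg c (rt b) by omega)
      rw [pow_add] at this
      omega
    change cdC (piOf c₀ c b κ) _ ≤ cdC (piOf c₀ c b κ) _ + 8 * ((piOf c₀ c b κ).p (rt b ^ 4) + 1) *
      ∑ j ∈ Icc l (rt b ^ 4), _ at b2
    change _ ≤ _ + 40 * ∑ j ∈ Icc l (rt b ^ 4), _ at b1
    rw [sum_cost] at b1 b2
    exact ar3 b1 b2 b3 b4 b5 hτ cs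

end Vale.Agent.P305M
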